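import Mathlib

/-!
P227, block SC-1 (helper223): the third central moment of a self-concordant one-dimensional density.
If `W'' ^ (-1/2) - c x` is nonincreasing, then `κ₃ ≤ 2 c σ³ / sqrt (1 + c²)` (comparison with a Gamma
density with the same moments of order 0, 1, 2).
-/

namespace Vale.Agent.P227.M.SC223

open MeasureTheory Set Real

/-- sign pattern of a function which is convex on `(x0, x1]`, concave on `[x1, ∞)` and negative far out -/
theorem pattern {D : ℝ → ℝ} {x0 x1 R : ℝ} (h01 : x0 < x1) (hconv : ConvexOn ℝ (Ioc x0 x1) D)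
    (hconc : ConcaveOn ℝ (Ici x1) D) (hR : ∀ x, R ≤ x → D x < 0) :
    ∃ a b c : ℝ, x0 ≤ a ∧ x0 ≤ b ∧ x0 ≤ c ∧ ∀ x, x0 < x → D x * ((x - a) * (x - b) * (x - c)) ≤ 0 := by
  by_cases hD : 0 ≤ D x1
  · -- case A
    set T : Set ℝ := {x | x1 ≤ x ∧ 0 ≤ D x} with hT
    have hTne : x1 ∈ T := ⟨le_rfl, hD⟩
    have hTbd : BddAbove T := ⟨R, fun x hx => by
      by_contra hlt; exact absurd hx.2 (not_le.2 (hR x (le_of_lt (not_le.1 hlt))))⟩
    set c := sSup T with hc
    have hc1 : x1 ≤ c := le_csSup hTbd hTne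
    have hcpos : ∀ x, x1 ≤ x → x < c → 0 ≤ D x := by
      intro x hx hxc
      obtain ⟨y, hyT, hxy⟩ := exists_lt_of_lt_csSup ⟨x1, hTne⟩ hxc
      have := hconc.min_le_of_mem_Icc (x := x1) (y := y) (mem_Ici.2 le_rfl) (mem_Ici.2 hyT.1) ⟨hx, hxy.le⟩
      exact le_trans (le_min hD hyT.2) this
    have hcneg : ∀ x, c < x → D x ≤ 0 := by
      intro x hx
      by_contra h
      exact absurd (le_csSup hTbd (show x ∈ T from ⟨hc1.trans hx.le, (not_le.1 h).le⟩)) (not_le.2 hx)
    set T' : Set ℝ := {x | x0 < x ∧ x < x1 ∧ D x < 0} with hT'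
    by_cases hne : T'.Nonempty
    · obtain ⟨w, hw⟩ := hne
      have hbd1 : BddBelow T' := ⟨x0, fun x hx => hx.1.le⟩
      have hbd2 : BddAbove T' := ⟨x1, fun x hx => hx.2.1.le⟩
      set a := sInf T' with ha
      set b := sSup T' with hb
      have ha0 : x0 ≤ a := le_csInf ⟨w, hw⟩ (fun x hx => hx.1.le)
      have hb1 : b ≤ x1 := csSup_le ⟨w, hw⟩ (fun x hx => hx.2.1.le)
      have haw : a ≤ w := csInf_le hbd1 hw
      have hwb : w ≤ b := le_csSup hbd2 hw
      have hmid : ∀ x, a < x → x < b → D x ≤ 0 := by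
        intro x hax hxb
        obtain ⟨y, hyT, hyx⟩ := exists_lt_of_csInf_lt ⟨w, hw⟩ hax
        obtain ⟨z, hzT, hxz⟩ := exists_lt_of_lt_csSup ⟨w, hw⟩ hxb
        have := hconv.le_max_of_mem_Icc (x := y) (y := z) ⟨hyT.1, hyT.2.1.le⟩ ⟨hzT.1, hzT.2.1.le⟩ ⟨hyx.le, hxz.le⟩
        exact le_trans this (max_le hyT.2.2.le hzT.2.2.le)
      have hleft : ∀ x, x0 < x → x < a → 0 ≤ D x := by
        intro x hx hxa
        by_contra h
        have : x ∈ T' := ⟨hx, lt_of_lt_of_le hxa (haw.trans hw.2.1.le), not_le.1 h⟩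
        exact absurd (csInf_le hbd1 this) (not_le.2 hxa)
      have hright : ∀ x, b < x → x < x1 → 0 ≤ D x := by
        intro x hx hx1
        by_contra h
        have : x ∈ T' := ⟨lt_of_le_of_lt (ha0.trans (haw.trans hwb)) hx, hx1, not_le.1 h⟩
        exact absurd (le_csSup hbd2 this) (not_le.2 hx)
      refine ⟨a, b, c, ha0, ha0.trans (haw.trans hwb), h01.le.trans hc1, fun x hx => ?_⟩
      have hab : a ≤ b := haw.trans hwb
      have hbc : b ≤ c := hb1.trans hc1
      rcases lt_trichotomy x a with h | h | h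
      · have h1 := hleft x hx h
        have h2 : (x - a) * (x - b) * (x - c) ≤ 0 := by
          have : 0 ≤ (x - a) * (x - b) := mul_nonneg_of_nonpos_of_nonpos (by linarith) (by linarith)
          exact mul_nonpos_of_nonneg_of_nonpos this (by linarith)
        exact mul_nonpos_of_nonneg_of_nonpos h1 h2
      · simp [h]
      · rcases lt_trichotomy x b with h' | h' | h'
        · have h1 := hmid x h h'
          have h2 : 0 ≤ (x - a) * (x - b) * (x - c) := by
            have : (x - a) * (x - b) ≤ 0 := mul_nonpos_of_nonneg_of_nonpos (by linarith) (by linarith)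
            exact mul_nonneg_of_nonpos_of_nonpos this (by linarith)
          exact mul_nonpos_of_nonpos_of_nonneg h1 h2
        · simp [h']
        · rcases lt_trichotomy x c with h'' | h'' | h''
          · have h1 : 0 ≤ D x := by
              rcases lt_or_ge x x1 with h3 | h3
              · exact hright x h' h3
              · exact hcpos x h3 h''
            have h2 : (x - a) * (x - b) * (x - c) ≤ 0 :=
              mul_nonpos_of_nonneg_of_nonpos (mul_nonneg (by linarith) (by linarith)) (by linarith)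
            exact mul_nonpos_of_nonneg_of_nonpos h1 h2
          · simp [h'']
          · have h1 := hcneg x h''
            have h2 : 0 ≤ (x - a) * (x - b) * (x - c) :=
              mul_nonneg (mul_nonneg (by linarith) (by linarith)) (by linarith)
            exact mul_nonpos_of_nonpos_of_nonneg h1 h2
    · have hall : ∀ x, x0 < x → x < x1 → 0 ≤ D x := by
        intro x hx hx1
        by_contra h
        exact hne ⟨x, hx, hx1, not_le.1 h⟩
      refine ⟨x1, x1, c, h01.le, h01.le, h01.le.trans hc1, fun x hx => ?_⟩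
      have hsq : 0 ≤ (x - x1) * (x - x1) := mul_self_nonneg _
      rcases lt_trichotomy x c with h'' | h'' | h''
      · have h1 : 0 ≤ D x := by
          rcases lt_or_ge x x1 with h3 | h3
          · exact hall x hx h3
          · exact hcpos x h3 h''
        exact mul_nonpos_of_nonneg_of_nonpos h1 (mul_nonpos_of_nonneg_of_nonpos hsq (by linarith))
      · simp [h'']
      · exact mul_nonpos_of_nonpos_of_nonneg (hcneg x h'') (mul_nonneg hsq (by linarith))
  · -- case B
    have hD' : D x1 < 0 := not_le.1 hD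
    set T' : Set ℝ := {x | x0 < x ∧ x ≤ x1 ∧ D x < 0} with hT'
    have hx1T : x1 ∈ T' := ⟨h01, le_rfl, hD'⟩
    have hbd1 : BddBelow T' := ⟨x0, fun x hx => hx.1.le⟩
    set a := sInf T' with ha
    have ha0 : x0 ≤ a := le_csInf ⟨x1, hx1T⟩ (fun x hx => hx.1.le)
    have ha1 : a ≤ x1 := csInf_le hbd1 hx1T
    have hmid : ∀ x, a < x → x ≤ x1 → D x ≤ 0 := by
      intro x hax hx1
      obtain ⟨y, hyT, hyx⟩ := exists_lt_of_csInf_lt ⟨x1, hx1T⟩ hax
      have := hconv.le_max_of_mem_Icc (x := y) (y := x1) ⟨hyT.1, hyT.2.1⟩ ⟨h01, le_rfl⟩ ⟨hyx.le, hx1⟩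
      exact le_trans this (max_le hyT.2.2.le hD'.le)
    have hleft : ∀ x, x0 < x → x < a → 0 ≤ D x := by
      intro x hx hxa
      by_contra h
      have : x ∈ T' := ⟨hx, (hxa.trans_le ha1).le, not_le.1 h⟩
      exact absurd (csInf_le hbd1 this) (not_le.2 hxa)
    set T : Set ℝ := {x | x1 ≤ x ∧ 0 < D x} with hT
    by_cases hne : T.Nonempty
    · obtain ⟨w, hw⟩ := hne
      have hTb1 : BddBelow T := ⟨x1, fun x hx => hx.1⟩
      have hTb2 : BddAbove T := ⟨R, fun x hx => by
        by_contra hlt; exact absurd hx.2 (not_lt.2 (hR x (le_of_lt (not_le.1 hlt))).le)⟩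
      set b := sInf T with hb
      set c := sSup T with hc
      have hb1 : x1 ≤ b := le_csInf ⟨w, hw⟩ (fun x hx => hx.1)
      have hbw : b ≤ w := csInf_le hTb1 hw
      have hwc : w ≤ c := le_csSup hTb2 hw
      have hpos : ∀ x, b < x → x < c → 0 ≤ D x := by
        intro x hbx hxc
        obtain ⟨y, hyT, hyx⟩ := exists_lt_of_csInf_lt ⟨w, hw⟩ hbx
        obtain ⟨z, hzT, hxz⟩ := exists_lt_of_lt_csSup ⟨w, hw⟩ hxc
        have := hconc.min_le_of_mem_Icc (x := y) (y := z) (mem_Ici.2 hyT.1) (mem_Ici.2 hzT.1) ⟨hyx.le, hxz.le⟩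
        exact le_trans (le_min hyT.2.le hzT.2.le) this
      have hn1 : ∀ x, x1 ≤ x → x < b → D x ≤ 0 := by
        intro x hx hxb
        by_contra h
        exact absurd (csInf_le hTb1 (show x ∈ T from ⟨hx, not_le.1 h⟩)) (not_le.2 hxb)
      have hn2 : ∀ x, c < x → D x ≤ 0 := by
        intro x hx
        by_contra h
        exact absurd (le_csSup hTb2 (show x ∈ T from ⟨hb1.trans (hbw.trans (hwc.trans hx.le)), not_le.1 h⟩)) (not_le.2 hx)
      refine ⟨a, b, c, ha0, ha0.trans (ha1.trans hb1), ha0.trans (ha1.trans (hb1.trans (hbw.trans hwc))), fun x hx => ?_⟩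
      have hbc : b ≤ c := hbw.trans hwc
      have hab : a ≤ b := ha1.trans hb1
      rcases lt_trichotomy x a with h | h | h
      · have h1 := hleft x hx h
        have h2 : (x - a) * (x - b) * (x - c) ≤ 0 := by
          have : 0 ≤ (x - a) * (x - b) := mul_nonneg_of_nonpos_of_nonpos (by linarith) (by linarith)
          exact mul_nonpos_of_nonneg_of_nonpos this (by linarith)
        exact mul_nonpos_of_nonneg_of_nonpos h1 h2
      · simp [h]
      · rcases lt_trichotomy x b with h' | h' | h'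
        · have h1 : D x ≤ 0 := by
            rcases le_or_gt x x1 with h3 | h3
            · exact hmid x h h3
            · exact hn1 x h3.le h'
          have h2 : 0 ≤ (x - a) * (x - b) * (x - c) := by
            have : (x - a) * (x - b) ≤ 0 := mul_nonpos_of_nonneg_of_nonpos (by linarith) (by linarith)
            exact mul_nonneg_of_nonpos_of_nonpos this (by linarith)
          exact mul_nonpos_of_nonpos_of_nonneg h1 h2
        · simp [h']
        · rcases lt_trichotomy x c with h'' | h'' | h''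
          · have h1 := hpos x h' h''
            have h2 : (x - a) * (x - b) * (x - c) ≤ 0 :=
              mul_nonpos_of_nonneg_of_nonpos (mul_nonneg (by linarith) (by linarith)) (by linarith)
            exact mul_nonpos_of_nonneg_of_nonpos h1 h2
          · simp [h'']
          · have h1 := hn2 x h''
            have h2 : 0 ≤ (x - a) * (x - b) * (x - c) :=
              mul_nonneg (mul_nonneg (by linarith) (by linarith)) (by linarith)
            exact mul_nonpos_of_nonpos_of_nonneg h1 h2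
    · have hall : ∀ x, x1 ≤ x → D x ≤ 0 := by
        intro x hx
        by_contra h
        exact hne ⟨x, hx, not_le.1 h⟩
      refine ⟨a, x1, x1, ha0, h01.le, h01.le, fun x hx => ?_⟩
      have hsq : 0 ≤ (x - x1) * (x - x1) := mul_self_nonneg _
      rcases lt_trichotomy x a with h | h | h
      · have h1 := hleft x hx h
        have : (x - a) * (x - x1) * (x - x1) ≤ 0 := by
          rw [mul_assoc]; exact mul_nonpos_of_nonpos_of_nonneg (by linarith) hsq
        exact mul_nonpos_of_nonneg_of_nonpos h1 this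
      · simp [h]
      · have h1 : D x ≤ 0 := by
          rcases le_or_gt x x1 with h3 | h3
          · exact hmid x h h3
          · exact hall x h3.le
        have : 0 ≤ (x - a) * (x - x1) * (x - x1) := by
          rw [mul_assoc]; exact mul_nonneg (by linarith) hsq
        exact mul_nonpos_of_nonpos_of_nonneg h1 this

/-! ## Comparison with the Gamma density `A x^k exp (-β x)` on `x > 0` -/

theorem sign_pattern {W W1 W2 : ℝ → ℝ} {c k β A c0 : ℝ} (hc : 0 < c) (hk : k = 1 / c ^ 2)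
    (hc0 : 0 < c0) (h1 : ∀ x, HasDerivAt W (W1 x) x) (h2 : ∀ x, HasDerivAt W1 (W2 x) x)
    (hlo : ∀ x, c0 ≤ W2 x) (hcont : Continuous W2)
    (hanti : Antitone (fun x => (Real.sqrt (W2 x))⁻¹ - c * x)) :
    ∃ a b d : ℝ, 0 ≤ a ∧ 0 ≤ b ∧ 0 ≤ d ∧ ∀ x, 0 < x →
      (-W x - k * Real.log x + β * x + A) * ((x - a) * (x - b) * (x - d)) ≤ 0 := by
  have hkpos : 0 < k := by rw [hk]; positivity
  have hW2 : ∀ x, 0 < W2 x := fun x => hc0.trans_le (hlo x)
  set G : ℝ → ℝ := fun x => (Real.sqrt (W2 x))⁻¹ - c * x with hG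
  have hGc : Continuous G := by
    have : ∀ x, Real.sqrt (W2 x) ≠ 0 := fun x => (Real.sqrt_pos.2 (hW2 x)).ne'
    exact ((Real.continuous_sqrt.comp hcont).inv₀ this).sub (continuous_const.mul continuous_id)
  have hG0 : 0 < G 0 := by
    have : 0 < (Real.sqrt (W2 0))⁻¹ := inv_pos.2 (Real.sqrt_pos.2 (hW2 0))
    simpa [hG] using this
  -- far out G is negative
  obtain ⟨y, hy0, hy⟩ : ∃ y, 0 < y ∧ G y < 0 := by
    refine ⟨(Real.sqrt c0)⁻¹ / c + 1, by positivity, ?_⟩
    have h3 : (Real.sqrt (W2 ((Real.sqrt c0)⁻¹ / c + 1)))⁻¹ ≤ (Real.sqrt c0)⁻¹ :=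
      inv_anti₀ (Real.sqrt_pos.2 hc0) (Real.sqrt_le_sqrt (hlo _))
    have h4 : c * ((Real.sqrt c0)⁻¹ / c + 1) = (Real.sqrt c0)⁻¹ + c := by field_simp
    simp only [hG]
    rw [h4]; linarith
  obtain ⟨x1, hx1m, hx1G⟩ : ∃ x1 ∈ Icc 0 y, G x1 = 0 := by
    have := intermediate_value_Icc' hy0.le (hGc.continuousOn (s := Icc 0 y))
    exact this ⟨hy.le, hG0.le⟩
  have hx10 : 0 < x1 := by
    rcases eq_or_lt_of_le hx1m.1 with h | h
    · rw [← h] at hx1G; exact absurd hx1G hG0.ne'
    · exact h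
  set D : ℝ → ℝ := fun x => -W x - k * Real.log x + β * x + A with hD
  set D1 : ℝ → ℝ := fun x => -W1 x - k * x⁻¹ + β with hD1
  set D2 : ℝ → ℝ := fun x => -W2 x + k * (x ^ 2)⁻¹ with hD2
  have hd1 : ∀ x, 0 < x → HasDerivAt D (D1 x) x := by
    intro x hx
    have h := (((h1 x).fun_neg.fun_sub ((Real.hasDerivAt_log hx.ne').const_mul k)).fun_add
      ((hasDerivAt_id x).const_mul β)).add_const A
    exact h.congr_deriv (by simp only [hD1]; ring)
  have hd2 : ∀ x, 0 < x → HasDerivAt D1 (D2 x) x := by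
    intro x hx
    have h := ((h2 x).fun_neg.fun_sub ((hasDerivAt_inv hx.ne').const_mul k)).add_const β
    exact h.congr_deriv (by simp only [hD2]; ring)
  have hDcont : ∀ s : Set ℝ, s ⊆ Ioi 0 → ContinuousOn D s := fun s hs x hx =>
    (hd1 x (hs hx)).continuousAt.continuousWithinAt
  -- comparison of second derivatives
  have key : ∀ x, 0 < x → (0 ≤ G x ↔ 0 ≤ D2 x) := by
    intro x hx
    have hs : 0 < Real.sqrt (W2 x) := Real.sqrt_pos.2 (hW2 x)
    have hsq : Real.sqrt (W2 x) ^ 2 = W2 x := Real.sq_sqrt (hW2 x).le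
    have e1 : 0 ≤ G x ↔ c * x * Real.sqrt (W2 x) ≤ 1 := by
      simp only [hG, sub_nonneg]
      rw [← one_div, le_div_iff₀ hs]
    have e2 : 0 ≤ D2 x ↔ (c * x * Real.sqrt (W2 x)) ^ 2 ≤ 1 := by
      simp only [hD2]
      rw [hk, mul_pow, hsq, mul_pow]
      constructor
      · intro h
        have h5 : W2 x ≤ 1 / c ^ 2 * (x ^ 2)⁻¹ := by linarith
        have h6 : 1 / c ^ 2 * (x ^ 2)⁻¹ = 1 / (c ^ 2 * x ^ 2) := by field_simp
        rw [h6, le_div_iff₀ (by positivity)] at h5
        linarith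
      · intro h
        have h6 : 1 / c ^ 2 * (x ^ 2)⁻¹ = 1 / (c ^ 2 * x ^ 2) := by field_simp
        have h5 : W2 x ≤ 1 / (c ^ 2 * x ^ 2) := by
          rw [le_div_iff₀ (by positivity)]; linarith
        rw [h6]; linarith
    rw [e1, e2]
    have h0 : 0 ≤ c * x * Real.sqrt (W2 x) := by positivity
    constructor
    · intro h; exact pow_le_one₀ h0 h
    · intro h; by_contra h'
      have : 1 < (c * x * Real.sqrt (W2 x)) ^ 2 := one_lt_pow₀ (not_le.1 h') (by norm_num)
      linarith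
  have hconv : ConvexOn ℝ (Ioc 0 x1) D := by
    refine convexOn_of_hasDerivWithinAt2_nonneg (convex_Ioc 0 x1) (hDcont _ (fun x hx => hx.1))
      (f' := D1) (f'' := D2) ?_ ?_ ?_
    all_goals rw [interior_Ioc]; intro x hx
    · exact (hd1 x hx.1).hasDerivWithinAt
    · exact (hd2 x hx.1).hasDerivWithinAt
    · refine (key x hx.1).1 ?_
      rw [← hx1G]; exact hanti hx.2.le
  have hconc : ConcaveOn ℝ (Ici x1) D := by
    refine concaveOn_of_hasDerivWithinAt2_nonpos (convex_Ici x1)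
      (hDcont _ (fun x hx => lt_of_lt_of_le hx10 hx)) (f' := D1) (f'' := D2) ?_ ?_ ?_
    all_goals rw [interior_Ici]; intro x hx
    · exact (hd1 x (hx10.trans hx)).hasDerivWithinAt
    · exact (hd2 x (hx10.trans hx)).hasDerivWithinAt
    · have hx0 : 0 < x := hx10.trans hx
      have hGx : G x ≤ 0 := by rw [← hx1G]; exact hanti (le_of_lt hx)
      by_contra hcon
      have h7 : 0 ≤ G x := (key x hx0).2 (not_le.1 hcon).le
      have h8 : G x = 0 := le_antisymm hGx h7
      -- G x = 0 forces D2 x = 0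
      have hs : 0 < Real.sqrt (W2 x) := Real.sqrt_pos.2 (hW2 x)
      have hsq : Real.sqrt (W2 x) ^ 2 = W2 x := Real.sq_sqrt (hW2 x).le
      have h9 : (Real.sqrt (W2 x))⁻¹ = c * x := by simp only [hG] at h8; linarith
      have h10 : Real.sqrt (W2 x) = (c * x)⁻¹ := by rw [← h9, inv_inv]
      have h11 : W2 x = ((c * x)⁻¹) ^ 2 := by rw [← hsq, h10]
      apply hcon
      simp only [hD2]
      rw [h11, hk]
      have : (1 / c ^ 2) * (x ^ 2)⁻¹ = ((c * x)⁻¹) ^ 2 := by field_simp
      rw [this]; simp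
  -- D is negative far out
  have hquad : ∀ x, 0 ≤ x → W 0 + W1 0 * x + c0 / 2 * x ^ 2 ≤ W x := by
    have hm1 : Monotone (fun x => W1 x - c0 * x) := by
      have hder : ∀ x, HasDerivAt (fun x => W1 x - c0 * x) (W2 x - c0) x := fun x =>
        ((h2 x).fun_sub ((hasDerivAt_id x).const_mul c0)).congr_deriv (by ring)
      apply monotone_of_deriv_nonneg
      · exact fun x => (hder x).differentiableAt
      · intro x
        rw [(hder x).deriv]
        linarith [hlo x]
    have hm2 : MonotoneOn (fun x => W x - W1 0 * x - c0 / 2 * x ^ 2) (Ici 0) := by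
      have hder : ∀ x, HasDerivAt (fun x => W x - W1 0 * x - c0 / 2 * x ^ 2)
          (W1 x - W1 0 - c0 * x) x := by
        intro x
        have h := ((h1 x).fun_sub ((hasDerivAt_id x).const_mul (W1 0))).fun_sub
          ((hasDerivAt_pow 2 x).const_mul (c0 / 2))
        exact h.congr_deriv (by push_cast; ring)
      apply monotoneOn_of_deriv_nonneg (convex_Ici 0)
      · exact fun x _ => (hder x).continuousAt.continuousWithinAt
      · exact fun x _ => (hder x).differentiableAt.differentiableWithinAt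
      · intro x hx
        rw [interior_Ici] at hx
        rw [(hder x).deriv]
        have := hm1 (le_of_lt hx)
        simp at this
        linarith
    intro x hx
    have := hm2 (mem_Ici.2 le_rfl) (mem_Ici.2 hx) hx
    simp at this
    linarith
  obtain ⟨R, hR⟩ : ∃ R, ∀ x, R ≤ x → D x < 0 := by
    set M := |β - W1 0| + |A - W 0| + 1 with hM
    refine ⟨max 1 (2 * M / c0), fun x hx => ?_⟩
    have hx1' : 1 ≤ x := (le_max_left _ _).trans hx
    have hx2 : 2 * M / c0 ≤ x := (le_max_right _ _).trans hx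
    have h3 := hquad x (by linarith)
    have hlog : 0 ≤ k * Real.log x := mul_nonneg hkpos.le (Real.log_nonneg hx1')
    have h4 : M ≤ c0 / 2 * x := by
      rw [div_le_iff₀ hc0] at hx2; linarith
    have h5 : M * x ≤ c0 / 2 * x ^ 2 := by nlinarith
    have h6 : (β - W1 0) * x + (A - W 0) < M * x := by
      have a1 : (β - W1 0) * x ≤ |β - W1 0| * x := mul_le_mul_of_nonneg_right (le_abs_self _) (by linarith)
      have a2 : A - W 0 ≤ |A - W 0| * x := (le_abs_self _).trans (le_mul_of_one_le_right (abs_nonneg _) hx1')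
      have a3 : (|β - W1 0| + |A - W 0|) * x < M * x := by
        rw [hM]; nlinarith
      nlinarith
    simp only [hD]
    nlinarith
  exact pattern hx10 hconv hconc hR

/-- moments of the (non normalised) Gamma density -/
theorem gam_moment {k β : ℝ} (hk : 0 < k) (hβ : 0 < β) (j : ℕ) :
    ∫ t in Ioi (0 : ℝ), t ^ j * (t ^ k * Real.exp (-(β * t))) =
      (1 / β) ^ (k + j + 1) * Real.Gamma (k + j + 1) := by
  rw [← Real.integral_rpow_mul_exp_neg_mul_Ioi (by positivity) hβ]
  refine setIntegral_congr_fun measurableSet_Ioi (fun t ht => ?_)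
  have ht' : (0 : ℝ) < t := ht
  show t ^ j * (t ^ k * Real.exp (-(β * t))) = t ^ (k + j + 1 - 1) * Real.exp (-(β * t))
  rw [← mul_assoc]
  congr 1
  rw [← Real.rpow_natCast t j, ← Real.rpow_add ht']
  congr 1; ring

theorem gam_integrable {k β : ℝ} (hk : 0 < k) (hβ : 0 < β) (j : ℕ) :
    IntegrableOn (fun t : ℝ => t ^ j * (t ^ k * Real.exp (-(β * t)))) (Ioi 0) := by
  by_contra h
  have h1 := gam_moment hk hβ j
  rw [integral_undef h] at h1
  have : 0 < (1 / β) ^ (k + j + 1) * Real.Gamma (k + j + 1) := by positivity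
  linarith

theorem quad_right {W W1 W2 : ℝ → ℝ} {c0 : ℝ}
    (h1 : ∀ x, HasDerivAt W (W1 x) x) (h2 : ∀ x, HasDerivAt W1 (W2 x) x) (hlo : ∀ x, c0 ≤ W2 x) :
    ∀ x, 0 ≤ x → W 0 + W1 0 * x + c0 / 2 * x ^ 2 ≤ W x := by
  have hm1 : Monotone (fun x => W1 x - c0 * x) := by
    have hder : ∀ x, HasDerivAt (fun x => W1 x - c0 * x) (W2 x - c0) x := fun x =>
      ((h2 x).fun_sub ((hasDerivAt_id x).const_mul c0)).congr_deriv (by ring)
    apply monotone_of_deriv_nonneg
    · exact fun x => (hder x).differentiableAt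
    · intro x
      rw [(hder x).deriv]
      linarith [hlo x]
  have hm2 : MonotoneOn (fun x => W x - W1 0 * x - c0 / 2 * x ^ 2) (Ici 0) := by
    have hder : ∀ x, HasDerivAt (fun x => W x - W1 0 * x - c0 / 2 * x ^ 2)
        (W1 x - W1 0 - c0 * x) x := by
      intro x
      have h := ((h1 x).fun_sub ((hasDerivAt_id x).const_mul (W1 0))).fun_sub
        ((hasDerivAt_pow 2 x).const_mul (c0 / 2))
      exact h.congr_deriv (by push_cast; ring)
    apply monotoneOn_of_deriv_nonneg (convex_Ici 0)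
    · exact fun x _ => (hder x).continuousAt.continuousWithinAt
    · exact fun x _ => (hder x).differentiableAt.differentiableWithinAt
    · intro x hx
      rw [interior_Ici] at hx
      rw [(hder x).deriv]
      have := hm1 (le_of_lt hx)
      simp at this
      linarith
  intro x hx
  have := hm2 (mem_Ici.2 le_rfl) (mem_Ici.2 hx) hx
  simp at this
  linarith

theorem neg_deriv {f f1 : ℝ → ℝ} (h : ∀ x, HasDerivAt f (f1 x) x) (x : ℝ) :
    HasDerivAt (fun x => f (-x)) (-f1 (-x)) x := by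
  have := (h (-x)).comp x (hasDerivAt_neg x)
  exact this.congr_deriv (by ring)

theorem quad_all {W W1 W2 : ℝ → ℝ} {c0 : ℝ}
    (h1 : ∀ x, HasDerivAt W (W1 x) x) (h2 : ∀ x, HasDerivAt W1 (W2 x) x) (hlo : ∀ x, c0 ≤ W2 x) (x : ℝ) :
    W 0 + W1 0 * x + c0 / 2 * x ^ 2 ≤ W x := by
  rcases le_total 0 x with hx | hx
  · exact quad_right h1 h2 hlo x hx
  · have := quad_right (W := fun x => W (-x)) (W1 := fun x => -W1 (-x)) (W2 := fun x => W2 (-x)) (c0 := c0)
      (neg_deriv h1) (fun x => ((neg_deriv h2 x).fun_neg).congr_deriv (by ring)) (fun x => hlo (-x)) (-x) (by linarith)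
    simp at this
    linarith

theorem int_pow {W W1 W2 : ℝ → ℝ} {c0 : ℝ} (hc0 : 0 < c0)
    (h1 : ∀ x, HasDerivAt W (W1 x) x) (h2 : ∀ x, HasDerivAt W1 (W2 x) x) (hlo : ∀ x, c0 ≤ W2 x) (n : ℕ) :
    Integrable (fun x => x ^ n * Real.exp (-W x)) := by
  have hWc : Continuous W := continuous_iff_continuousAt.2 fun x => (h1 x).continuousAt
  have hI := (integrable_rpow_mul_exp_neg_mul_sq (b := c0 / 4) (by positivity) (s := (n : ℝ))
    (by have : (0 : ℝ) ≤ n := Nat.cast_nonneg n
        linarith)).norm.const_mul (Real.exp (-W 0 + W1 0 ^ 2 / c0))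
  refine hI.mono' ((continuous_pow n).mul (Real.continuous_exp.comp hWc.neg)).aestronglyMeasurable ?_
  refine Filter.Eventually.of_forall fun x => ?_
  have hq := quad_all h1 h2 hlo x
  rw [norm_mul, norm_mul, Real.rpow_natCast, Real.norm_eq_abs (Real.exp _), abs_of_pos (Real.exp_pos _),
    Real.norm_eq_abs (Real.exp _), abs_of_pos (Real.exp_pos _)]
  have hexp : Real.exp (-W x) ≤ Real.exp (-W 0 + W1 0 ^ 2 / c0) * Real.exp (-(c0 / 4) * x ^ 2) := by
    rw [← Real.exp_add]
    apply Real.exp_le_exp.2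
    have hsq : 0 ≤ W1 0 ^ 2 / c0 + W1 0 * x + c0 / 4 * x ^ 2 := by
      have : W1 0 ^ 2 / c0 + W1 0 * x + c0 / 4 * x ^ 2 = (W1 0 + c0 / 2 * x) ^ 2 / c0 := by
        field_simp; ring
      rw [this]; positivity
    linarith
  calc ‖x ^ n‖ * Real.exp (-W x) ≤ ‖x ^ n‖ * (Real.exp (-W 0 + W1 0 ^ 2 / c0) * Real.exp (-(c0 / 4) * x ^ 2)) :=
        mul_le_mul_of_nonneg_left hexp (norm_nonneg _)
    _ = _ := by ring

theorem core {W W1 W2 : ℝ → ℝ} {c k β c0 : ℝ} (hc : 0 < c) (hk : k = 1 / c ^ 2) (hβ : 0 < β)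
    (hc0 : 0 < c0) (h1 : ∀ x, HasDerivAt W (W1 x) x) (h2 : ∀ x, HasDerivAt W1 (W2 x) x)
    (hlo : ∀ x, c0 ≤ W2 x) (hcont : Continuous W2)
    (hanti : Antitone (fun x => (Real.sqrt (W2 x))⁻¹ - c * x))
    (m0 : ∫ x, Real.exp (-W x) = 1) (m1 : ∫ x, x * Real.exp (-W x) = (k + 1) / β)
    (m2 : ∫ x, x ^ 2 * Real.exp (-W x) = (k + 1) * (k + 2) / β ^ 2) :
    ∫ x, x ^ 3 * Real.exp (-W x) ≤ (k + 1) * (k + 2) * (k + 3) / β ^ 3 := by
  have hkpos : 0 < k := by rw [hk]; positivity
  have hG : 0 < Real.Gamma (k + 1) := Real.Gamma_pos_of_pos (by linarith)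
  set A0 : ℝ := β ^ (k + 1) / Real.Gamma (k + 1) with hA0
  have hA0pos : 0 < A0 := by positivity
  set Q : ℝ → ℝ := (Ioi (0 : ℝ)).indicator (fun x => A0 * (x ^ k * Real.exp (-(β * x)))) with hQ
  have hQj : ∀ j : ℕ, (fun x => x ^ j * Q x) =
      (Ioi (0 : ℝ)).indicator (fun x => A0 * (x ^ j * (x ^ k * Real.exp (-(β * x))))) := by
    intro j
    ext x
    by_cases hx : x ∈ Ioi (0 : ℝ)
    · simp only [hQ, indicator_of_mem hx]; ring
    · simp only [hQ, indicator_of_notMem hx, mul_zero]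
  have hQint : ∀ j : ℕ, Integrable (fun x => x ^ j * Q x) := by
    intro j
    rw [hQj j, integrable_indicator_iff measurableSet_Ioi]
    exact (gam_integrable hkpos hβ j).const_mul A0
  have hQval : ∀ j : ℕ, ∫ x, x ^ j * Q x = A0 * ((1 / β) ^ (k + j + 1) * Real.Gamma (k + j + 1)) := by
    intro j
    rw [hQj j, integral_indicator measurableSet_Ioi, integral_const_mul, gam_moment hkpos hβ j]
  have hβk : (1 / β) ^ (k + 1) = (β ^ (k + 1))⁻¹ := by
    rw [one_div, Real.inv_rpow hβ.le]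
  have hb : β ^ (k + 1) ≠ 0 := (Real.rpow_pos_of_pos hβ _).ne'
  have g1 : Real.Gamma (k + 1 + 1) = (k + 1) * Real.Gamma (k + 1) := Real.Gamma_add_one (by linarith)
  have g2 : Real.Gamma (k + 2 + 1) = (k + 2) * ((k + 1) * Real.Gamma (k + 1)) := by
    rw [Real.Gamma_add_one (by linarith), show k + 2 = k + 1 + 1 by ring, g1]
  have g3 : Real.Gamma (k + 3 + 1) = (k + 3) * ((k + 2) * ((k + 1) * Real.Gamma (k + 1))) := by
    rw [Real.Gamma_add_one (by linarith), show k + 3 = k + 2 + 1 by ring, g2]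
  have p1 : (1 / β) ^ (k + 1 + 1) = (β ^ (k + 1))⁻¹ * (1 / β) := by
    rw [Real.rpow_add (by positivity), hβk, Real.rpow_one]
  have p2 : (1 / β) ^ (k + 2 + 1) = (β ^ (k + 1))⁻¹ * (1 / β) ^ 2 := by
    rw [show k + 2 + 1 = (k + 1) + ((2 : ℕ) : ℝ) by push_cast; ring, Real.rpow_add (by positivity), hβk,
      Real.rpow_natCast]
  have p3 : (1 / β) ^ (k + 3 + 1) = (β ^ (k + 1))⁻¹ * (1 / β) ^ 3 := by
    rw [show k + 3 + 1 = (k + 1) + ((3 : ℕ) : ℝ) by push_cast; ring, Real.rpow_add (by positivity), hβk,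
      Real.rpow_natCast]
  have q0 : ∫ x, Q x = 1 := by
    have := hQval 0
    simp only [pow_zero, one_mul, Nat.cast_zero, add_zero] at this
    rw [this, hβk, hA0]; field_simp
  have q1 : ∫ x, x * Q x = (k + 1) / β := by
    have := hQval 1
    simp only [pow_one, Nat.cast_one] at this
    rw [this, p1, g1, hA0]; field_simp
  have q2 : ∫ x, x ^ 2 * Q x = (k + 1) * (k + 2) / β ^ 2 := by
    have := hQval 2
    simp only [Nat.cast_ofNat] at this
    rw [this, p2, g2, hA0]; field_simp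
  have q3 : ∫ x, x ^ 3 * Q x = (k + 1) * (k + 2) * (k + 3) / β ^ 3 := by
    have := hQval 3
    simp only [Nat.cast_ofNat] at this
    rw [this, p3, g3, hA0]; field_simp
  obtain ⟨a, b, d, ha, hb', hd, hsign⟩ := sign_pattern (β := β) (A := -Real.log A0) hc hk hc0 h1 h2 hlo hcont hanti
  have hneg : ∀ x, (Real.exp (-W x) - Q x) * ((x - a) * (x - b) * (x - d)) ≤ 0 := by
    intro x
    rcases lt_or_ge 0 x with hx | hx
    · have hs := hsign x hx
      have hQx : Q x = Real.exp (Real.log A0 + k * Real.log x - β * x) := by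
        simp only [hQ, indicator_of_mem (show x ∈ Ioi (0 : ℝ) from hx)]
        rw [Real.rpow_def_of_pos hx, ← Real.exp_add, sub_eq_add_neg, add_assoc, Real.exp_add (Real.log A0),
          Real.exp_log hA0pos]
        ring_nf
      rw [hQx]
      set D := -W x - k * Real.log x + β * x + -Real.log A0 with hDdef
      rcases lt_trichotomy D 0 with h | h | h
      · have hP : 0 ≤ (x - a) * (x - b) * (x - d) := by
          by_contra hcon
          have := mul_pos_of_neg_of_neg h (not_le.1 hcon)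
          linarith
        refine mul_nonpos_of_nonpos_of_nonneg ?_ hP
        rw [sub_nonpos]; apply Real.exp_le_exp.2; linarith
      · have : -W x = Real.log A0 + k * Real.log x - β * x := by linarith
        rw [this]; simp
      · have hP : (x - a) * (x - b) * (x - d) ≤ 0 := by
          by_contra hcon
          have := mul_pos h (not_le.1 hcon)
          linarith
        refine mul_nonpos_of_nonneg_of_nonpos ?_ hP
        rw [sub_nonneg]; apply Real.exp_le_exp.2; linarith
    · have hQx : Q x = 0 := by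
        simp only [hQ, indicator_of_notMem (show x ∉ Ioi (0 : ℝ) from not_lt.2 hx)]
      rw [hQx, sub_zero]
      refine mul_nonpos_of_nonneg_of_nonpos (Real.exp_pos _).le ?_
      have : 0 ≤ (x - a) * (x - b) := mul_nonneg_of_nonpos_of_nonpos (by linarith) (by linarith)
      exact mul_nonpos_of_nonneg_of_nonpos this (by linarith)
  have hI0 := int_pow hc0 h1 h2 hlo 0
  have hI1 := int_pow hc0 h1 h2 hlo 1
  have hI2 := int_pow hc0 h1 h2 hlo 2
  have hI3 := int_pow hc0 h1 h2 hlo 3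
  have hJ0 := hQint 0
  have hJ1 := hQint 1
  have hJ2 := hQint 2
  have hJ3 := hQint 3
  simp only [pow_zero, one_mul] at hI0 hJ0
  simp only [pow_one] at hI1 hJ1
  have hle : ∫ x, (Real.exp (-W x) - Q x) * ((x - a) * (x - b) * (x - d)) ≤ 0 :=
    integral_nonpos hneg
  have hexp : (fun x => (Real.exp (-W x) - Q x) * ((x - a) * (x - b) * (x - d))) = fun x =>
      (((x ^ 3 * Real.exp (-W x) - x ^ 3 * Q x) - (a + b + d) * (x ^ 2 * Real.exp (-W x) - x ^ 2 * Q x)) +
        (a * b + a * d + b * d) * (x * Real.exp (-W x) - x * Q x)) - a * b * d * (Real.exp (-W x) - Q x) := by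
    ext x; ring
  rw [hexp, integral_sub, integral_add, integral_sub, integral_sub hI3 hJ3, integral_const_mul,
    integral_sub hI2 hJ2, integral_const_mul, integral_sub hI1 hJ1, integral_const_mul, integral_sub hI0 hJ0,
    m0, m1, m2, q0, q1, q2, q3] at hle
  · simp only [sub_self, mul_zero, sub_zero, add_zero] at hle
    linarith
  · exact hI3.sub hJ3
  · exact (hI2.sub hJ2).const_mul _
  · exact (hI3.sub hJ3).sub ((hI2.sub hJ2).const_mul _)
  · exact (hI1.sub hJ1).const_mul _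
  · exact ((hI3.sub hJ3).sub ((hI2.sub hJ2).const_mul _)).add ((hI1.sub hJ1).const_mul _)
  · exact (hI0.sub hJ0).const_mul _

theorem third_upper {W W1 W2 : ℝ → ℝ} {c c0 m v : ℝ} (hc : 0 < c) (hc0 : 0 < c0) (hv : 0 < v)
    (h1 : ∀ x, HasDerivAt W (W1 x) x) (h2 : ∀ x, HasDerivAt W1 (W2 x) x)
    (hlo : ∀ x, c0 ≤ W2 x) (hcont : Continuous W2)
    (hanti : Antitone (fun x => (Real.sqrt (W2 x))⁻¹ - c * x))
    (m0 : ∫ x, Real.exp (-W x) = 1) (m1 : ∫ x, x * Real.exp (-W x) = m)
    (m2 : ∫ x, (x - m) ^ 2 * Real.exp (-W x) = v) :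
    ∫ x, (x - m) ^ 3 * Real.exp (-W x) ≤ 2 * (c / Real.sqrt (1 + c ^ 2)) * Real.sqrt v ^ 3 := by
  set k : ℝ := 1 / c ^ 2 with hk
  have hkpos : 0 < k := by positivity
  set s : ℝ := Real.sqrt (k + 1) with hs
  have hspos : 0 < s := Real.sqrt_pos.2 (by linarith)
  have hs2 : s ^ 2 = k + 1 := Real.sq_sqrt (by linarith)
  set σ : ℝ := Real.sqrt v with hσ
  have hσpos : 0 < σ := Real.sqrt_pos.2 hv
  have hσ2 : σ ^ 2 = v := Real.sq_sqrt hv.le
  set β : ℝ := s / σ with hβ
  have hβpos : 0 < β := by positivity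
  set μ : ℝ := (k + 1) / β with hμ
  have hμ' : μ = s * σ := by rw [hμ, hβ, ← hs2]; field_simp
  set x0 : ℝ := m - μ with hx0
  have hI : ∀ n : ℕ, Integrable (fun x => x ^ n * Real.exp (-W x)) := int_pow hc0 h1 h2 hlo
  have hI0 := hI 0
  have hI1 := hI 1
  simp only [pow_zero, one_mul] at hI0
  simp only [pow_one] at hI1
  have hI2 := hI 2
  have hI3 := hI 3
  have c0' : ∫ x, (x - m) * Real.exp (-W x) = 0 := by
    have : (fun x => (x - m) * Real.exp (-W x)) = fun x => x * Real.exp (-W x) - m * Real.exp (-W x) := by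
      ext x; ring
    rw [this, integral_sub hI1 (hI0.const_mul m), integral_const_mul, m0, m1]; ring
  have hC1 : Integrable (fun x => (x - m) * Real.exp (-W x)) := by
    have : (fun x => (x - m) * Real.exp (-W x)) = fun x => x * Real.exp (-W x) - m * Real.exp (-W x) := by
      ext x; ring
    rw [this]; exact hI1.sub (hI0.const_mul m)
  have hC2 : Integrable (fun x => (x - m) ^ 2 * Real.exp (-W x)) := by
    have : (fun x => (x - m) ^ 2 * Real.exp (-W x)) = fun x => (x ^ 2 * Real.exp (-W x) -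
        (2 * m) * (x * Real.exp (-W x))) + m ^ 2 * Real.exp (-W x) := by
      ext x; ring
    rw [this]; exact (hI2.sub (hI1.const_mul _)).add (hI0.const_mul _)
  have hC3 : Integrable (fun x => (x - m) ^ 3 * Real.exp (-W x)) := by
    have : (fun x => (x - m) ^ 3 * Real.exp (-W x)) = fun x => ((x ^ 3 * Real.exp (-W x) -
        (3 * m) * (x ^ 2 * Real.exp (-W x))) + (3 * m ^ 2) * (x * Real.exp (-W x))) - m ^ 3 * Real.exp (-W x) := by
      ext x; ring
    rw [this]; exact ((hI3.sub (hI2.const_mul _)).add (hI1.const_mul _)).sub (hI0.const_mul _)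
  -- translated potential
  have hshift : ∀ f : ℝ → ℝ, ∫ x, f (x + x0) = ∫ x, f x := fun f => integral_add_right_eq_self f x0
  have t0 : ∫ x, Real.exp (-W (x + x0)) = 1 := by
    rw [hshift (fun y => Real.exp (-W y)), m0]
  have t1 : ∫ x, x * Real.exp (-W (x + x0)) = (k + 1) / β := by
    have e : (fun x => x * Real.exp (-W (x + x0))) = fun x => (fun y => (y - x0) * Real.exp (-W y)) (x + x0) := by
      ext x; simp
    rw [e, hshift (fun y => (y - x0) * Real.exp (-W y))]
    have e2 : (fun y => (y - x0) * Real.exp (-W y)) = fun y => (y - m) * Real.exp (-W y) + μ * Real.exp (-W y) := by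
      ext y; simp only [hx0]; ring
    rw [e2, integral_add hC1 (hI0.const_mul _), c0', integral_const_mul, m0]; simp [hμ]
  have t2 : ∫ x, x ^ 2 * Real.exp (-W (x + x0)) = (k + 1) * (k + 2) / β ^ 2 := by
    have e : (fun x => x ^ 2 * Real.exp (-W (x + x0))) = fun x => (fun y => (y - x0) ^ 2 * Real.exp (-W y)) (x + x0) := by
      ext x; simp
    rw [e, hshift (fun y => (y - x0) ^ 2 * Real.exp (-W y))]
    have e2 : (fun y => (y - x0) ^ 2 * Real.exp (-W y)) = fun y => ((y - m) ^ 2 * Real.exp (-W y) +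
        (2 * μ) * ((y - m) * Real.exp (-W y))) + μ ^ 2 * Real.exp (-W y) := by
      ext y; simp only [hx0]; ring
    have hA : Integrable (fun y => (y - m) ^ 2 * Real.exp (-W y) + (2 * μ) * ((y - m) * Real.exp (-W y))) :=
      hC2.add (hC1.const_mul _)
    rw [e2, integral_add hA (hI0.const_mul _), integral_add hC2 (hC1.const_mul _),
      integral_const_mul, integral_const_mul, c0', m0, m2, hμ', ← hσ2, hβ]
    have : k + 2 = s ^ 2 + 1 := by rw [hs2]; ring
    rw [this, ← hs2]; field_simp; ring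
  have hfin := core (W := fun x => W (x + x0)) (W1 := fun x => W1 (x + x0)) (W2 := fun x => W2 (x + x0))
    (k := k) (β := β) (c0 := c0) hc hk hβpos hc0
    (fun x => (h1 (x + x0)).comp_add_const x x0) (fun x => (h2 (x + x0)).comp_add_const x x0)
    (fun x => hlo _) (hcont.comp (continuous_add_const x0))
    (fun x y hxy => by
      have := hanti (show x + x0 ≤ y + x0 by linarith)
      simp only at this ⊢
      linarith) t0 t1 t2
  have e : (fun x => x ^ 3 * Real.exp (-W (x + x0))) = fun x => (fun y => (y - x0) ^ 3 * Real.exp (-W y)) (x + x0) := by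
    ext x; simp
  rw [e, hshift (fun y => (y - x0) ^ 3 * Real.exp (-W y))] at hfin
  have e2 : (fun y => (y - x0) ^ 3 * Real.exp (-W y)) = fun y => (((y - m) ^ 3 * Real.exp (-W y) +
      (3 * μ) * ((y - m) ^ 2 * Real.exp (-W y))) + (3 * μ ^ 2) * ((y - m) * Real.exp (-W y))) +
      μ ^ 3 * Real.exp (-W y) := by
    ext y; simp only [hx0]; ring
  have hB1 : Integrable (fun y => (y - m) ^ 3 * Real.exp (-W y) + (3 * μ) * ((y - m) ^ 2 * Real.exp (-W y))) :=
    hC3.add (hC2.const_mul _)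
  have hB2 : Integrable (fun y => ((y - m) ^ 3 * Real.exp (-W y) + (3 * μ) * ((y - m) ^ 2 * Real.exp (-W y))) +
      (3 * μ ^ 2) * ((y - m) * Real.exp (-W y))) := hB1.add (hC1.const_mul _)
  rw [e2, integral_add hB2 (hI0.const_mul _),
    integral_add hB1 (hC1.const_mul _), integral_add hC3 (hC2.const_mul _),
    integral_const_mul, integral_const_mul, integral_const_mul, c0', m0, m2, hμ', ← hσ2, hβ] at hfin
  have hk3 : (k + 1) * (k + 2) * (k + 3) / (s / σ) ^ 3 = (s ^ 2 + 1) * (s ^ 2 + 2) / s * σ ^ 3 := by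
    have a1 : k + 2 = s ^ 2 + 1 := by rw [hs2]; ring
    have a2 : k + 3 = s ^ 2 + 2 := by rw [hs2]; ring
    rw [a1, a2, ← hs2]; field_simp
  rw [hk3] at hfin
  have hcs : c / Real.sqrt (1 + c ^ 2) = 1 / s := by
    have h3 : 1 + c ^ 2 = (c * s) ^ 2 := by
      rw [mul_pow, hs2, hk]; field_simp
    rw [h3, Real.sqrt_sq (by positivity)]; field_simp
  rw [hcs]
  have hexp : (s ^ 2 + 1) * (s ^ 2 + 2) / s * σ ^ 3 = s ^ 3 * σ ^ 3 + 3 * s * σ ^ 3 + 2 * (1 / s) * σ ^ 3 := by
    field_simp; ring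
  rw [hexp] at hfin
  nlinarith [hfin]

theorem anti_of_third {W2 W3 : ℝ → ℝ} {c c0 : ℝ} (hc0 : 0 < c0)
    (h3 : ∀ x, HasDerivAt W2 (W3 x) x) (hlo : ∀ x, c0 ≤ W2 x)
    (hsc : ∀ x, -(2 * c * (W2 x * Real.sqrt (W2 x))) ≤ W3 x) :
    Antitone (fun x => (Real.sqrt (W2 x))⁻¹ - c * x) := by
  have hW2 : ∀ x, 0 < W2 x := fun x => hc0.trans_le (hlo x)
  have hder : ∀ x, HasDerivAt (fun x => (Real.sqrt (W2 x))⁻¹ - c * x)
      (-(W3 x / (2 * Real.sqrt (W2 x))) / Real.sqrt (W2 x) ^ 2 - c) x := by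
    intro x
    have hs : 0 < Real.sqrt (W2 x) := Real.sqrt_pos.2 (hW2 x)
    have := (((h3 x).sqrt (hW2 x).ne').inv hs.ne').sub ((hasDerivAt_id x).const_mul c)
    exact this.congr_deriv (by ring)
  apply antitone_of_deriv_nonpos
  · exact fun x => (hder x).differentiableAt
  · intro x
    rw [(hder x).deriv]
    have hs : 0 < Real.sqrt (W2 x) := Real.sqrt_pos.2 (hW2 x)
    have hsq : Real.sqrt (W2 x) ^ 2 = W2 x := Real.sq_sqrt (hW2 x).le
    rw [sub_nonpos, div_le_iff₀ (by positivity), hsq]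
    have h4 : -(W3 x) / (2 * Real.sqrt (W2 x)) ≤ c * W2 x := by
      rw [div_le_iff₀ (by positivity)]
      have := hsc x
      nlinarith
    calc -(W3 x / (2 * Real.sqrt (W2 x))) = -(W3 x) / (2 * Real.sqrt (W2 x)) := by ring
      _ ≤ _ := h4

theorem third_upper' {W W1 W2 W3 : ℝ → ℝ} {c c0 Z m v : ℝ} (hc : 0 < c) (hc0 : 0 < c0)
    (h1 : ∀ x, HasDerivAt W (W1 x) x) (h2 : ∀ x, HasDerivAt W1 (W2 x) x)
    (h3 : ∀ x, HasDerivAt W2 (W3 x) x) (hlo : ∀ x, c0 ≤ W2 x)
    (hsc : ∀ x, -(2 * c * (W2 x * Real.sqrt (W2 x))) ≤ W3 x)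
    (hZ : Z = ∫ x, Real.exp (-W x)) (hm : m = (∫ x, x * Real.exp (-W x)) / Z)
    (hv : v = (∫ x, (x - m) ^ 2 * Real.exp (-W x)) / Z) :
    0 < Z ∧ 0 < v ∧ (∫ x, (x - m) ^ 3 * Real.exp (-W x)) / Z ≤ 2 * (c / Real.sqrt (1 + c ^ 2)) * Real.sqrt v ^ 3 := by
  have hI : ∀ n : ℕ, Integrable (fun x => x ^ n * Real.exp (-W x)) := int_pow hc0 h1 h2 hlo
  have hI0 := hI 0
  have hI1 := hI 1
  have hI2 := hI 2
  simp only [pow_zero, one_mul] at hI0
  simp only [pow_one] at hI1
  have hZpos : 0 < Z := by rw [hZ]; exact integral_exp_pos hI0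
  have hexp : ∀ x, Real.exp (-(W x + Real.log Z)) = Real.exp (-W x) / Z := by
    intro x
    rw [neg_add, Real.exp_add, Real.exp_neg (Real.log Z), Real.exp_log hZpos]; rfl
  have hC2 : Integrable (fun x => (x - m) ^ 2 * Real.exp (-W x)) := by
    have : (fun x => (x - m) ^ 2 * Real.exp (-W x)) = fun x => (x ^ 2 * Real.exp (-W x) -
        (2 * m) * (x * Real.exp (-W x))) + m ^ 2 * Real.exp (-W x) := by
      ext x; ring
    rw [this]; exact (hI2.sub (hI1.const_mul _)).add (hI0.const_mul _)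
  have hvpos : 0 < v := by
    rw [hv]
    refine div_pos ?_ hZpos
    rw [integral_pos_iff_support_of_nonneg (fun x => by positivity) hC2]
    have hsub : Ioi m ⊆ Function.support (fun x => (x - m) ^ 2 * Real.exp (-W x)) := by
      intro x hx
      have : 0 < x - m := sub_pos.2 hx
      exact (by positivity : (0 : ℝ) < (x - m) ^ 2 * Real.exp (-W x)).ne'
    exact lt_of_lt_of_le (by simp) (measure_mono hsub)
  refine ⟨hZpos, hvpos, ?_⟩
  have key := third_upper (W := fun x => W x + Real.log Z) (W1 := W1) (W2 := W2) (m := m) (v := v) hc hc0 hvpos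
    (fun x => (h1 x).add_const _) h2 hlo (continuous_iff_continuousAt.2 fun x => (h3 x).continuousAt)
    (anti_of_third hc0 h3 hlo hsc)
    (by simp only [hexp]; rw [integral_div, ← hZ, div_self hZpos.ne'])
    (by simp only [hexp, ← mul_div_assoc]; rw [integral_div, hm])
    (by simp only [hexp, ← mul_div_assoc]; rw [integral_div, hv])
  have e3 : ∫ x, (x - m) ^ 3 * Real.exp (-(W x + Real.log Z)) = (∫ x, (x - m) ^ 3 * Real.exp (-W x)) / Z := by
    simp only [hexp, ← mul_div_assoc]; rw [integral_div]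
  rwa [e3] at key

/-- SC-1: third central moment of a density with self-concordant potential -/
theorem third_abs {W W1 W2 W3 : ℝ → ℝ} {c c0 Z m v : ℝ} (hc : 0 < c) (hc0 : 0 < c0)
    (h1 : ∀ x, HasDerivAt W (W1 x) x) (h2 : ∀ x, HasDerivAt W1 (W2 x) x)
    (h3 : ∀ x, HasDerivAt W2 (W3 x) x) (hlo : ∀ x, c0 ≤ W2 x)
    (hsc : ∀ x, |W3 x| ≤ 2 * c * (W2 x) ^ (3 / 2 : ℝ))
    (hZ : Z = ∫ x, Real.exp (-W x)) (hm : m = (∫ x, x * Real.exp (-W x)) / Z)
    (hv : v = (∫ x, (x - m) ^ 2 * Real.exp (-W x)) / Z) :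
    |(∫ x, (x - m) ^ 3 * Real.exp (-W x)) / Z| ≤ 2 * (c / Real.sqrt (1 + c ^ 2)) * v ^ (3 / 2 : ℝ) := by
  have hW2 : ∀ x, 0 < W2 x := fun x => hc0.trans_le (hlo x)
  have hrp : ∀ t : ℝ, 0 < t → t ^ (3 / 2 : ℝ) = t * Real.sqrt t := by
    intro t ht
    rw [Real.sqrt_eq_rpow, show (3 / 2 : ℝ) = 1 + 1 / 2 by norm_num, Real.rpow_add ht, Real.rpow_one]
  have hsc' : ∀ x, |W3 x| ≤ 2 * c * (W2 x * Real.sqrt (W2 x)) := fun x => by
    rw [← hrp _ (hW2 x)]; exact hsc x
  obtain ⟨hZpos, hvpos, hup⟩ := third_upper' hc hc0 h1 h2 h3 hlo (fun x => (abs_le.1 (hsc' x)).1) hZ hm hv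
  have hneg : ∀ f : ℝ → ℝ, ∫ x, f (-x) = ∫ x, f x := fun f => integral_neg_eq_self f volume
  obtain ⟨-, -, hlow⟩ := third_upper' (W := fun x => W (-x)) (W1 := fun x => -W1 (-x)) (W2 := fun x => W2 (-x))
    (W3 := fun x => -W3 (-x)) (Z := Z) (m := -m) (v := v) hc hc0 (neg_deriv h1)
    (fun x => ((neg_deriv h2 x).fun_neg).congr_deriv (by ring)) (neg_deriv h3) (fun x => hlo (-x))
    (fun x => by have := (abs_le.1 (hsc' (-x))).2; linarith)
    (by rw [hZ]; exact (hneg (fun x => Real.exp (-W x))).symm)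
    (by
      rw [hm, ← neg_div]
      congr 1
      have := hneg (fun x => (-x) * Real.exp (-W x))
      simp only [neg_neg] at this
      rw [this, ← integral_neg]
      congr 1; ext x; ring)
    (by
      rw [hv]
      congr 1
      have := hneg (fun x => (-x - -m) ^ 2 * Real.exp (-W x))
      simp only [neg_neg] at this
      rw [this]
      congr 1; ext x; ring)
  have hlow' : -((∫ x, (x - m) ^ 3 * Real.exp (-W x)) / Z) ≤ 2 * (c / Real.sqrt (1 + c ^ 2)) * Real.sqrt v ^ 3 := by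
    refine le_trans (le_of_eq ?_) hlow
    rw [← neg_div]
    congr 1
    have := hneg (fun x => (-x - -m) ^ 3 * Real.exp (-W x))
    simp only [neg_neg] at this
    rw [this, ← integral_neg]
    congr 1; ext x; ring
  have hv3 : v ^ (3 / 2 : ℝ) = Real.sqrt v ^ 3 := by
    rw [hrp v hvpos, pow_succ, Real.sq_sqrt hvpos.le]
  rw [hv3]
  exact abs_le.2 ⟨by linarith, hup⟩

end Vale.Agent.P227.M.SC223
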